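import Vale.Agent.P343.H741.Iface

/-!
Row B+F: the bottom and the top of the recursion, and the lower bound.
-/

namespace Vale.Agent.P343.H411

open Vale.Agent.P343 Vale.Agent.P343.H741
open Vale.Agent.P343.Box (Sym Ext RLang acts idSym rep)

/-- The bottom of the recursion. -/
theorem base (hP : ∀ Q : Type, PtsFacts Q) : BaseStmt := by
  intro V s0 f0 hne Q _ M hM a hN
  by_contra hcon
  have ha : a = 0 := by omega
  subst ha
  obtain ⟨h1, h2, h3, Act, h4, h5⟩ := hN
  have hAct : ∀ t, Act t = ∅ := fun t => by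
    have := h4 t
    rwa [Nat.le_zero, Set.ncard_eq_zero (Set.toFinite _)] at this
  classical
  obtain ⟨s, hs⟩ : ∃ s : Sym V, s = ⟨fun v => decide (v = s0), fun v => decide (v = f0),
    fun _ => true⟩ := ⟨_, rfl⟩
  -- all recurrent states survive
  have hx : ∀ d x, Pt (M.G (idSym V)) d x → X (M.G (idSym V)) (M.G s) d x x := by
    intro d x hx
    refine h5 s (fun _ => by rw [hs]) d x hx (fun v _ => ?_) (fun v _ => ?_)
    · rw [hAct]
      exact Set.notMem_empty _
    · rw [hAct]
      exact Set.notMem_empty _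
  have hle : ∀ c c', M.G (idSym V) c c' → M.G s c c' := by
    rintro ⟨d, x⟩ ⟨d', y⟩ h
    by_cases hd : d = d'
    · subst hd
      obtain ⟨z, hz, hv⟩ := (hP Q).via1 h1 h
      exact (hP Q).via2 h1 (h2 s) (h3 s) hv (hx _ _ hz)
    · exact (hP Q).bounce (h2 s) (h3 s) hd h
  have hid : M.Acc [idSym V] := by
    rw [hM]
    show f0 ∉ (idSym V).act {s0}
    rw [Box.idSym_act]
    exact fun h => hne h.symm
  have hacc : M.Acc [s] := by
    unfold BAut.Acc at hid ⊢
    simp only [List.map_cons, List.map_nil, List.prod_cons, List.prod_nil, mul_one] at hid ⊢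
    exact mul_mono (fun _ _ h => mul_mono (fun _ _ h => h) hle h) (fun _ _ h => h) hid
  rw [hM] at hacc
  refine hacc ?_
  show f0 ∈ s.act {s0}
  rw [hs]
  exact ⟨Or.inr ⟨decide_eq_true rfl, s0, rfl, decide_eq_true rfl⟩, rfl⟩

theorem acts_rep_id {V : Type} (k : ℕ) (S : Set V) : acts (rep [idSym V] k) S = S := by
  induction k with
  | zero => rfl
  | succ k ih => rw [rep, Box.acts_append1]; show acts _ ((idSym V).act S) = S; rw [Box.idSym_act, ih]

theorem prod_rep {P Q : Type} (g : P → NB Q) (w : List P) (k : ℕ) :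
    ((rep w k).map g).prod = (w.map g).prod ^ k := by
  induction k with
  | zero => simp [rep]
  | succ k ih => rw [rep, List.map_append, List.prod_append, ih, pow_succ']

theorem prod_flatMap {P Q R : Type} (g : P → NB Q) (m : R → List P) (w : List R) :
    ((w.flatMap m).map g).prod = (w.map fun r => ((m r).map g).prod).prod := by
  induction w with
  | nil => rfl
  | cons a w ih => rw [List.flatMap_cons, List.map_append, List.prod_append, ih, List.map_cons,
      List.prod_cons]

theorem acts_flatMap {V : Type} (m : Sym V → List (Sym V))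
    (hm : ∀ a S, acts (m a) S = a.act S) (w : List (Sym V)) (S : Set V) :
    acts (w.flatMap m) S = acts w S := by
  induction w generalizing S with
  | nil => rfl
  | cons a w ih =>
    rw [List.flatMap_cons, Box.acts_append1, hm, ih]
    rfl

theorem ncard_Cls {Q : Type} [Finite Q] (e : NB Q) : (Cls e).ncard ≤ 2 * Nat.card Q := by
  have h1 : Cls e ⊆ (fun p : Bool × Q => (p.1, cl e p.1 p.2)) '' Set.univ := by
    rintro ⟨d, C⟩ ⟨x, -, hx⟩
    exact ⟨(d, x), Set.mem_univ _, Prod.ext rfl hx.symm⟩
  refine (Set.ncard_le_ncard h1 (Set.toFinite _)).trans ?_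
  refine (Set.ncard_image_le (Set.toFinite _)).trans ?_
  rw [Set.ncard_univ, Nat.card_prod, Nat.card_eq_fintype_card, Fintype.card_bool]

/-- The top of the recursion. -/
theorem top : TopStmt := by
  intro V s0 f0 Q _ M hM
  classical
  obtain ⟨k, hk, hid⟩ := exists_pow_idem (M.G (idSym V))
  obtain ⟨e, he⟩ : ∃ e, e = M.G (idSym V) ^ k := ⟨_, rfl⟩
  rw [← he] at hid
  obtain ⟨m, hm⟩ : ∃ m : Sym V → List (Sym V), m = fun s => if s = idSym V then
    rep [idSym V] k else rep [idSym V] k ++ [s] ++ rep [idSym V] k := ⟨_, rfl⟩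
  obtain ⟨G1, hG1⟩ : ∃ G1 : Sym V → NB Q, G1 = fun s => if s = idSym V then e
    else e * M.G s * e := ⟨_, rfl⟩
  have hrep : ((rep [idSym V] k).map M.G).prod = e := by
    rw [prod_rep, he, List.map_singleton, List.prod_singleton]
  have hG : ∀ s, ((m s).map M.G).prod = G1 s := by
    intro s
    rw [hm, hG1]
    by_cases h : s = idSym V
    · simp only [if_pos h]
      exact hrep
    · simp only [if_neg h, List.map_append, List.prod_append, List.map_singleton,
        List.prod_singleton]
      rw [hrep]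
  have hact : ∀ a S, acts (m a) S = a.act S := by
    intro a S
    rw [hm]
    by_cases h : a = idSym V
    · simp only [if_pos h]
      rw [acts_rep_id, h, Box.idSym_act]
    · simp only [if_neg h]
      rw [Box.acts_append1, Box.acts_append1, acts_rep_id, acts_rep_id]
      rfl
  have e1 : G1 (idSym V) = e := by rw [hG1]; exact if_pos rfl
  refine ⟨⟨G1, M.bl, M.br, M.start, M.fin⟩, ⟨?_, ?_, ?_, fun _ => Cls e, fun _ => ncard_Cls e, ?_⟩,
    ?_⟩
  · show G1 (idSym V) * G1 (idSym V) = G1 (idSym V)
    rw [e1, hid]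
  · intro s
    show G1 (idSym V) * G1 s = G1 s
    rw [e1, hG1]
    by_cases h : s = idSym V
    · simp only [if_pos h]
      exact hid
    · simp only [if_neg h]
      rw [← mul_assoc, ← mul_assoc, hid]
  · intro s
    show G1 s * G1 (idSym V) = G1 s
    rw [e1, hG1]
    by_cases h : s = idSym V
    · simp only [if_pos h]
      exact hid
    · simp only [if_neg h]
      rw [mul_assoc, hid]
  · intro s hkeep d x hx hsrc hdst
    change Pt (G1 (idSym V)) d x at hx
    change X (G1 (idSym V)) (G1 s) d x x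
    change ∀ v, s.src v = true → (d, cl (G1 (idSym V)) d x) ∉ Cls e at hsrc
    change ∀ v, s.dst v = true → (d, cl (G1 (idSym V)) d x) ∉ Cls e at hdst
    rw [e1] at hx hsrc hdst ⊢
    have hmem : (d, cl e d x) ∈ Cls e := ⟨x, hx, rfl⟩
    have hs : s = idSym V := by
      obtain ⟨a, b, c⟩ := s
      have ha : a = fun _ => false := by
        funext v
        cases hv : a v
        · rfl
        · exact absurd hmem (hsrc v hv)
      have hb : b = fun _ => false := by
        funext v
        cases hv : b v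
        · rfl
        · exact absurd hmem (hdst v hv)
      have hc : c = fun _ => true := funext hkeep
      rw [ha, hb, hc]
      rfl
    rw [hs, e1]
    exact hx
  · intro w
    have h1 := hM (w.flatMap m)
    unfold BAut.Acc RLang at h1 ⊢
    rw [acts_flatMap m hact, prod_flatMap] at h1
    simp only [hG] at h1
    exact h1

/-- Every normal form of activity `a` that decides the complement has `t ≤ a`. -/
def NL (V : Type) (s0 f0 : V) (t : ℕ) : Prop :=
  ∀ (Q : Type) [Finite Q] (M : BAut (Sym V) Q),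
    (∀ w, M.Acc w ↔ ¬ RLang s0 f0 w) → ∀ a, Norm M.G a → t ≤ a

theorem nl_rec (hS : StepStmt) (hB : BaseStmt) : ∀ j : ℕ, ∃ (V : Type) (_ : Fintype V) (s0 f0 : V),
    s0 ≠ f0 ∧ Fintype.card V = 2 + 33 * j ∧ NL V s0 f0 (2 ^ j) := by
  intro j
  induction j with
  | zero =>
    refine ⟨Bool, inferInstance, false, true, Bool.false_ne_true, rfl, fun Q _ M hM a ha => ?_⟩
    rw [pow_zero]
    exact hB Bool false true Bool.false_ne_true Q M hM a ha
  | succ j ih =>
    obtain ⟨V, _, s0, f0, hne, hc, hN⟩ := ih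
    refine ⟨Ext V 16, inferInstance, Sum.inl s0, Sum.inl f0, fun h => hne (Sum.inl.inj h), ?_,
      fun Q _ M hM a ha => ?_⟩
    · rw [Fintype.card_sum, Fintype.card_sum, Fintype.card_sum, Fintype.card_fin,
        Fintype.card_unit, hc]
      ring
    · obtain ⟨M1, a', h1, h2, h3⟩ := hS V s0 f0 16 (by norm_num) Q M hM a ha
      have h4 := hN Q M1 h3 a' h1
      rw [pow_succ]
      omega

/-- The lower bound. -/
theorem final (hS : StepStmt) (hT : TopStmt) (hB : BaseStmt) (hA : AutStmt) : FinalStmt := by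
  intro n j hn
  obtain ⟨k, rfl⟩ : ∃ k, n = k + 3 := ⟨n - 3, by omega⟩
  refine ⟨Sym (Fin (k + 2)), inferInstance, Box.RAut k, Box.RAut_oneWay k, fun s B hBA => ?_⟩
  obtain ⟨V, _, s0, f0, hne, hc, hN⟩ := nl_rec hS hB (j + 2)
  obtain ⟨M, hM⟩ := hA _ s B
  have h01 : (0 : Fin (k + 2)) ≠ 1 := by
    intro h
    have h1 := congrArg Fin.val h
    simp at h1
  obtain ⟨i, hi1, hi2⟩ := Box.exists_embedding (X := V) (Y := Fin (k + 2)) (a := s0) (b := f0)
    (c := 0) (d := 1) (by rw [hc, Fintype.card_fin]; omega) hne h01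
  have hM' : ∀ w, (⟨fun a => M.G (Box.pushSym i a), M.bl, M.br, M.start, M.fin⟩ :
      BAut (Sym V) (Option (Fin s))).Acc w ↔ ¬ RLang s0 f0 w := by
    intro w
    have h1 := hM (w.map (Box.pushSym i))
    rw [hBA, Box.RAut_accepts] at h1
    unfold BAut.Acc RLang at h1 ⊢
    rw [List.map_map] at h1
    have h2 : (fun a => M.G (Box.pushSym i a)) = M.G ∘ Box.pushSym i := rfl
    rw [h2, h1, ← hi1, ← hi2, ← Set.image_singleton, Box.pushSym_acts]
    exact not_congr i.injective.mem_set_image
  obtain ⟨M1, h1, h2⟩ := hT V s0 f0 _ _ hM'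
  have h3 := hN _ M1 h2 _ h1
  rw [Nat.card_eq_fintype_card, Fintype.card_option, Fintype.card_fin] at h3
  have h4 : 2 ^ (j + 2) = 4 * 2 ^ j := by ring
  have h5 : 0 < 2 ^ j := by positivity
  omega

end Vale.Agent.P343.H411
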